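import Vale.Agent.P354K.Unif

open scoped ContDiff
open Set

namespace Vale.Agent.P354KW

open Vale.Agent.P354H (X3)
open Vale.Agent.P354K

/-- The jet variables as a sum of products. -/
def eJ : Jt ≃ (Fin 3 × Fin 3) ⊕ (Fin 3 × Fin 3 × Fin 3) ⊕ (Fin 3 × Fin 3 × Fin 3 × Fin 3) ⊕
    (Fin 3 × Fin 3) ⊕ (Fin 3 × Fin 3 × Fin 3) where
  toFun
    | .h a b => .inl (a, b)
    | .dh i a b => .inr (.inl (i, a, b))
    | .ddh i k a b => .inr (.inr (.inl (i, k, a, b)))
    | .p a b => .inr (.inr (.inr (.inl (a, b))))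
    | .dp i a b => .inr (.inr (.inr (.inr (i, a, b))))
  invFun
    | .inl (a, b) => .h a b
    | .inr (.inl (i, a, b)) => .dh i a b
    | .inr (.inr (.inl (i, k, a, b))) => .ddh i k a b
    | .inr (.inr (.inr (.inl (a, b)))) => .p a b
    | .inr (.inr (.inr (.inr (i, a, b)))) => .dp i a b
  left_inv x := by cases x <;> rfl
  right_inv := by rintro (_ | _ | _ | _ | _) <;> rfl

theorem sum_Jt (f : Jt → ℝ) : ∑ x, f x = ∑ a, ∑ b, f (.h a b) + ∑ i, ∑ a, ∑ b, f (.dh i a b) +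
    ∑ i, ∑ k, ∑ a, ∑ b, f (.ddh i k a b) + ∑ a, ∑ b, f (.p a b) +
    ∑ i, ∑ a, ∑ b, f (.dp i a b) := by
  rw [← eJ.symm.sum_comp]
  simp only [Fintype.sum_sum_type, Fintype.sum_prod_type, add_assoc]
  rfl

theorem det_ge {G : M3} (hs : ∀ a b, G a b = G b a) {c : ℝ} (hc : 0 < c)
    (h : ∀ w : Fin 3 → ℝ, c * ∑ a, w a ^ 2 ≤ ∑ a, ∑ b, w a * G a b * w b) : c ^ 3 ≤ G.det := by
  have hH : G.IsHermitian := Matrix.IsHermitian.ext fun a b => by simpa using hs b a
  have k : ∀ i, c ≤ hH.eigenvalues i := fun i => by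
    have e := hH.eigenvalues_eq i
    have n := hH.eigenvectorBasis.orthonormal.1 i
    have n2 := EuclideanSpace.real_norm_sq_eq (hH.eigenvectorBasis i)
    have := h (hH.eigenvectorBasis i)
    rw [← n2, n, one_pow, mul_one] at this
    rw [e]
    simpa [dotProduct, Matrix.mulVec, Finset.mul_sum, mul_assoc] using this
  rw [hH.det_eq_prod_eigenvalues, Fin.prod_univ_three]
  calc c ^ 3 = c * c * c := by ring
    _ ≤ _ := mul_le_mul (mul_le_mul (k 0) (k 1) hc.le (hc.le.trans (k 0))) (k 2) hc.le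
      (mul_nonneg (hc.le.trans (k 0)) (hc.le.trans (k 1)))

theorem SS_par {G : M3} (hs : ∀ a b, G a b = G b a) (q : M3) (k l : Fin 3) :
    ∑ b, ∑ c, SS G b c k l * par G q b c = G.det ^ 3 * q k l := by
  have e : G = !![G 0 0, G 0 1, G 0 2; G 0 1, G 1 1, G 1 2; G 0 2, G 1 2, G 2 2] := by
    ext a b
    fin_cases a <;> fin_cases b <;> simp [hs 1 0, hs 2 0, hs 2 1]
  have k2 : ∑ b, ∑ c, (G.adjugate b k * G.adjugate c l - G.adjugate b c * G.adjugate k l) *
      par G q b c = G.det ^ 2 * q k l := by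
    rw [e]
    fin_cases k <;> fin_cases l <;>
    · simp [par, Fin.sum_univ_three, Matrix.adjugate_fin_three, Matrix.det_fin_three]
      ring
  simp only [SS, mul_assoc, ← Finset.mul_sum, k2]
  ring

theorem par_symm {G q : M3} (hs : ∀ a b, G a b = G b a) (hq : ∀ a b, q a b = q b a) (a b : Fin 3) :
    par G q a b = par G q b a := by
  unfold par
  rw [hs a b, Finset.sum_comm]
  congr 1
  exact Finset.sum_congr rfl fun c _ => Finset.sum_congr rfl fun d _ => by rw [hq d c]; ring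

variable {P : Type} {jb : P → Jt → X3 → ℝ}

/-- The metric of the base jet. -/
abbrev Gm (jb : P → Jt → X3 → ℝ) (r : P) (z : X3) : M3 := hm (at' (jb r) z)

theorem Gm_symm (h : Base jb) (r : P) (z : X3) (a b : Fin 3) : Gm jb r z a b = Gm jb r z b a :=
  congrFun ((h.adm r).hs a b) z

theorem ud_G (h : Base jb) (a b : Fin 3) : UD fun r z => Gm jb r z a b := h.ud (.h a b)

theorem ud_det (h : Base jb) : UD fun r z => (Gm jb r z).det := by
  simp only [Matrix.det_fin_three]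
  have u := ud_G h
  exact (((((((u 0 0).mul (u 1 1)).mul (u 2 2)).sub (((u 0 0).mul (u 1 2)).mul (u 2 1))).sub
    (((u 0 1).mul (u 1 0)).mul (u 2 2))).add (((u 0 1).mul (u 1 2)).mul (u 2 0))).add
    (((u 0 2).mul (u 1 0)).mul (u 2 1))).sub (((u 0 2).mul (u 1 1)).mul (u 2 0))

theorem ud_adj (h : Base jb) (a b : Fin 3) : UD fun r z => (Gm jb r z).adjugate a b := by
  have u := ud_G h
  simp only [Matrix.adjugate_fin_three]
  fin_cases a <;> fin_cases b <;>
    first
      | exact ((u _ _).mul (u _ _)).sub ((u _ _).mul (u _ _))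
      | exact ((u _ _).mul (u _ _)).neg.add ((u _ _).mul (u _ _))

theorem det_low (h : Base jb) : ∃ δ > 0, ∀ r z, δ ≤ (Gm jb r z).det :=
  let ⟨c, hc, k⟩ := h.pos
  ⟨c ^ 3, pow_pos hc 3, fun r z => det_ge (Gm_symm h r z) hc (k r z)⟩

theorem det_pos (h : Base jb) (r : P) (z : X3) : 0 < (Gm jb r z).det :=
  let ⟨_, hδ, k⟩ := det_low h
  hδ.trans_le (k r z)

theorem ud_det_inv (h : Base jb) : UD fun r z => (Gm jb r z).det⁻¹ :=
  let ⟨_, hδ, k⟩ := det_low h
  (ud_det h).inv hδ k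

theorem ud_SS (h : Base jb) (a b k l : Fin 3) : UD fun r z => SS (Gm jb r z) a b k l :=
  (ud_det h).mul (((ud_adj h a k).mul (ud_adj h b l)).sub ((ud_adj h a b).mul (ud_adj h k l)))

theorem par_eq (G q : M3) (a b : Fin 3) :
    par G q a b = ∑ c, ∑ d, (G a c * G b d - G a b * G c d * (1 / 2)) * q c d := by
  simp only [par, Fin.sum_univ_three]
  ring

theorem ud_parc (h : Base jb) (a b c d : Fin 3) : UD fun r z =>
    Gm jb r z a c * Gm jb r z b d - Gm jb r z a b * Gm jb r z c d * (1 / 2) :=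
  ((ud_G h a c).mul (ud_G h b d)).sub (((ud_G h a b).mul (ud_G h c d)).mul (ud_c _))

theorem uc_par (h : Base jb) {K : Set X3} {q : P → X3 → M3}
    (hq : ∀ b c, UC K fun r z => q r z b c) (a b : Fin 3) :
    UC K fun r z => par (Gm jb r z) (q r z) a b := by
  simp only [par_eq]
  exact UC.sum _ fun c => UC.sum _ fun d => (hq c d).mul (ud_parc h a b c d).ub

theorem ud_par (h : Base jb) {q : P → X3 → M3} (hq : ∀ b c, UD fun r z => q r z b c)
    (a b : Fin 3) : UD fun r z => par (Gm jb r z) (q r z) a b := by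
  simp only [par_eq]
  exact UD.sum _ fun c => UD.sum _ fun d => (ud_parc h a b c d).mul (hq c d)

/-- The jet of a pair of matrix fields. -/
noncomputable def jet (H π : Fin 3 → Fin 3 → X3 → ℝ) : Jt → X3 → ℝ
  | .h a b => H a b
  | .dh i a b => D i (H a b)
  | .ddh i k a b => D i (D k (H a b))
  | .p a b => π a b
  | .dp i a b => D i (π a b)

theorem adm_jet {H π : Fin 3 → Fin 3 → X3 → ℝ} (h1 : ∀ a b, Sm (H a b)) (h2 : ∀ a b, Sm (π a b))
    (s1 : ∀ a b, H a b = H b a) (s2 : ∀ a b, π a b = π b a) : Adm (jet H π) := by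
  refine ⟨fun x => ?_, s1, s2, fun _ _ _ => rfl, fun _ _ _ _ => rfl, fun _ _ _ => rfl⟩
  cases x with
  | h a b => exact h1 a b
  | dh i a b => exact D_sm i (h1 a b)
  | ddh i k a b => exact D_sm i (D_sm k (h1 a b))
  | p a b => exact h2 a b
  | dp i a b => exact D_sm i (h2 a b)

theorem adm_add {j j' : Jt → X3 → ℝ} (h : Adm j) (h' : Adm j') :
    Adm fun x z => j x z + j' x z :=
  ⟨fun x => (h.sm x).add (h'.sm x), fun a b => by rw [h.hs a b, h'.hs a b],
    fun a b => by rw [h.ps a b, h'.ps a b],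
    fun i a b => by rw [D_add i (h.sm _) (h'.sm _), h.dh, h'.dh],
    fun i k a b => by rw [D_add i (h.sm _) (h'.sm _), h.ddh, h'.ddh],
    fun i a b => by rw [D_add i (h.sm _) (h'.sm _), h.dp, h'.dp]⟩

end Vale.Agent.P354KW
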