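import Vale.Agent.P354KW.Osc
import Vale.Agent.P354KW.Alg

open scoped ContDiff
open Set

namespace Vale.Agent.P354KW

open Vale.Agent.P354H (X3)
open Vale.Agent.P354K

variable {P : Type} {jb : P → Jt → X3 → ℝ} {lc : Eq4 → Jt → P → X3 → ℝ} {K : Set X3}
  {lam : P → ℝ} {a : Fin 3} {n : ℤ} {j : P → Jt → X3 → ℝ}

section
variable (hb : Base jb) (hs : Str jb lc) (hl : ∀ r, 1 ≤ lam r) (hK : IsCompact K)
  (hj : ∀ r, Adm (j r)) (h1 : ∀ b c, Osc K lam a (n + 1 + 1) fun r => j r (.h b c))
  (h2 : ∀ b c, Osc K lam a (n + 1) fun r => j r (.p b c))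
include hb hs hl hK hj h1 h2

/-- The principal symbol of the linearised Hamiltonian constraint. -/
theorem symb_H : Osc K lam a (n + 1) fun r z => Lin lc r (j r) none z -
    D a (D a fun y => ∑ b, ∑ c, SS (Gm jb r y) b c a a * j r (.h b c) y) z := by
  have t1 := sum fun b => sum fun c => mul (mono hl (h1 b c) (by omega : n + 1 ≤ n + 1 + 1))
    (hs.ud none (.h b c)).ub
  have t2 := sum fun i => sum fun b => sum fun c => mul (der hl hK (h1 b c) i)
    (hs.ud none (.dh i b c)).ub
  have t3 := sum_sub (K := K) (lam := lam) (a := a) (n := n + 1)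
    (f := fun (t : Fin 3 × Fin 3) r z => ∑ b, ∑ c,
      SS (Gm jb r z) b c t.1 t.2 * D t.1 (D t.2 (j r (.h b c))) z) (a, a) fun t ht => by
      refine sum fun b => sum fun c => mul ?_ (ud_SS hb b c t.1 t.2).ub
      by_cases e : t.1 = a
      · exact der hl hK (der_ne hK (h1 b c) fun e2 => ht (Prod.ext e e2)) t.1
      · exact der_ne hK (der hl hK (h1 b c) t.2) e
  have t4 := sum fun b => sum fun c => mul (h2 b c) (hs.ud none (.p b c)).ub
  have t5 := sum fun b => sum fun c => comm2 hl hK (h1 b c) (ud_SS hb b c a a) a a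
  refine congr (add (add (add (add t1 t2) t3) t4) t5) fun r z => ?_
  have s : ∀ b c, Sm fun y => SS (Gm jb r y) b c a a * j r (.h b c) y := fun b c =>
    ((ud_SS hb b c a a).1 r).mul ((hj r).sm _)
  rw [D_sum a _ fun b => ContDiff.sum fun c _ => s b c]
  simp only [D_sum a _ (s _)]
  rw [D_sum a _ fun b => ContDiff.sum fun c _ => D_sm a (s b c)]
  simp only [D_sum a _ fun c => D_sm a (s _ c), Lin, sum_Jt, hs.hddh, hs.hdp, (hj r).ddh, (hj r).dh,
    Fintype.sum_prod_type, Finset.sum_sub_distrib, zero_mul, Finset.sum_const_zero]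
  ring

/-- The principal symbol of the linearised momentum constraint. -/
theorem symb_M (e : Fin 3) : Osc K lam a (n + 1) fun r z => Lin lc r (j r) (some e) z -
    D a (fun y => ∑ c, Gm jb r y e c * j r (.p c a) y) z := by
  have u := fun x => (hb.ud x).ub
  have d := fun b c i => der hl hK (h1 b c) i
  have t1 := sum fun b => sum fun c => mul (h2 c b) (u (.dh b e c))
  have t2 := sum_sub (K := K) (lam := lam) (a := a) (n := n + 1)
    (f := fun (b : Fin 3) r z => ∑ c, jb r (.h e c) z * D b (j r (.p c b)) z) a fun b hb =>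
      sum fun c => mul (der_ne hK (h2 c b) hb) (u _)
  have t3 := sum fun b => sum fun c => mul (mul (d b c e) (u (.p b c))) (ub_c (1 / 2))
  have t4 := sum fun b => sum fun c => mul (d e c b) (u (.p c b))
  have t5 := sum fun b => sum fun c => mul (mono hl (h1 e c) (by omega : n + 1 ≤ n + 1 + 1))
    (u (.dp b c b))
  have t6 := sum fun b => sum fun c => mul (mul (h2 b c) (u (.dh e b c))) (ub_c (1 / 2))
  have t7 := sum fun c => comm1 (h2 c a) (ud_G hb e c) a
  refine congr (add (sub (add (add (sub (add t1 t2) t3) t4) t5) t6) t7) fun r z => ?_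
  rw [D_sum a _ fun c => ((ud_G hb e c).1 r).mul ((hj r).sm _)]
  have m := hs.mom e r z (at' (j r) z)
  simp only [at'] at m
  simp only [Lin, m, PM, at', (hj r).dh, (hj r).dp, Gm, hm, Matrix.of_apply, Fin.sum_univ_three]
  ring

end

theorem lin_add (r : P) (j j' : Jt → X3 → ℝ) (k : Eq4) (z : X3) :
    Lin lc r (fun x z => j x z + j' x z) k z = Lin lc r j k z + Lin lc r j' k z := by
  simp only [Lin, mul_add, Finset.sum_add_distrib]

theorem stepH (hb : Base jb) {G : P → X3 → ℝ} (hG : Osc K lam a n G) :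
    ∃ H : P → Fin 3 → Fin 3 → X3 → ℝ, (∀ b c, Osc K lam a n fun r => H r b c) ∧
      (∀ r b c, H r b c = H r c b) ∧
      ∀ r, (fun y => ∑ b, ∑ c, SS (Gm jb r y) b c a a * H r b c y) = G r := by
  obtain ⟨q, hq, h1⟩ : ∃ q : M3, (∀ b c, q b c = q c b) ∧ q a a = 1 :=
    ⟨1, fun b c => by simp [Matrix.one_apply, eq_comm], by simp⟩
  refine ⟨fun r b c z => par (Gm jb r z) q b c * (Gm jb r z).det⁻¹ ^ 3 * G r z,
    fun b c => mul hG ((ud_par (q := fun _ _ => q) hb (fun _ _ => ud_c _) b c).mul
      ((ud_det_inv hb).pow 3)).ub,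
    fun r b c => funext fun z => by simp only [par_symm (Gm_symm hb r z) hq b c],
    fun r => funext fun y => ?_⟩
  have h0 := (det_pos hb r y).ne'
  simp only [← mul_assoc, ← Finset.sum_mul, SS_par (Gm_symm hb r y), h1]
  field_simp

theorem stepP (hb : Base jb) {G : Fin 3 → P → X3 → ℝ} (hG : ∀ e, Osc K lam a n (G e)) :
    ∃ π : P → Fin 3 → Fin 3 → X3 → ℝ, (∀ b c, Osc K lam a n fun r => π r b c) ∧
      (∀ r b c, π r b c = π r c b) ∧
      ∀ e r, (fun y => ∑ c, Gm jb r y e c * π r c a y) = G e r := by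
  obtain ⟨X, oX, hX⟩ : ∃ X : Fin 3 → P → X3 → ℝ, (∀ c, Osc K lam a n (X c)) ∧
      ∀ e r y, ∑ c, Gm jb r y e c * X c r y = G e r y := by
    refine ⟨fun c r z => ∑ e, (Gm jb r z).adjugate c e * (Gm jb r z).det⁻¹ * G e r z, fun c =>
      sum fun e => mul (hG e) ((ud_adj hb c e).mul (ud_det_inv hb)).ub, fun e r y => ?_⟩
    have h0 := (det_pos hb r y).ne'
    have e3 : ∀ d, ∑ c, Gm jb r y e c * (Gm jb r y).adjugate c d =
        if e = d then (Gm jb r y).det else 0 := fun d => by
      have := congrFun (congrFun (Matrix.mul_adjugate (Gm jb r y)) e) d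
      simpa [Matrix.mul_apply, Matrix.one_apply] using this
    simp only [Finset.mul_sum]
    rw [Finset.sum_comm]
    simp only [← mul_assoc, ← Finset.sum_mul, e3]
    simp [h0]
  obtain ⟨δ, hδ⟩ : ∃ δ : Fin 3 → ℝ, ∀ b, δ b = if b = a then 1 else 0 := ⟨_, fun _ => rfl⟩
  refine ⟨fun r c b z => δ b * X c r z + δ c * X b r z - δ c * δ b * X a r z, fun b c =>
    sub (add (mul (oX b) (ub_c _)) (mul (oX c) (ub_c _))) (mul (oX a) (ub_c _)),
    fun r b c => funext fun z => by ring, fun e r => funext fun y => ?_⟩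
  rw [← hX e r y]
  exact Finset.sum_congr rfl fun c _ => by simp [hδ]

/-- One step: the residual of order n is cancelled at leading order. -/
theorem step (hb : Base jb) (hs : Str jb lc) (hl : ∀ r, 1 ≤ lam r) (hK : IsCompact K)
    {F : Eq4 → P → X3 → ℝ} (hF : ∀ k, Osc K lam a n (F k)) :
    ∃ j : P → Jt → X3 → ℝ, (∀ r, Adm (j r)) ∧
      (∀ b c, Osc K lam a (n + 1 + 1) fun r => j r (.h b c)) ∧
      (∀ b c, Osc K lam a (n + 1) fun r => j r (.p b c)) ∧
      ∀ k, Osc K lam a (n + 1) fun r z => F k r z + Lin lc r (j r) k z := by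
  choose G hG hG' using fun k => prim hl hK (neg (hF k))
  obtain ⟨G2, g2, g2'⟩ := prim hl hK (hG none)
  obtain ⟨H, oH, sH, eH⟩ := stepH hb g2
  obtain ⟨π, oπ, sπ, eπ⟩ := stepP hb fun e => hG (some e)
  have ad : ∀ r, Adm (jet (H r) (π r)) := fun r => adm_jet (fun b c => sm (oH b c) r)
    (fun b c => sm (oπ b c) r) (sH r) (sπ r)
  refine ⟨fun r => jet (H r) (π r), ad, oH, oπ, fun k => ?_⟩
  cases k with
  | none =>
    refine congr (add (add (symb_H hb hs hl hK ad oH oπ) (der hl hK g2' a)) (hG' none))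
      fun r z => ?_
    simp only [jet, eH]
    rw [D_sub a (D_sm a (sm g2 r)) (sm (hG none) r)]
    ring
  | some e =>
    refine congr (add (symb_M hb hs hl hK ad oH oπ e) (hG' (some e))) fun r z => ?_
    simp only [jet, eπ]
    ring

theorem wkb : WKB := by
  intro P jb lc hb hs K lam a q π J hK hl hq hπ sq sπ q0 π0
  induction J with
  | zero =>
    have oH := fun b c => of_sin (lam := lam) (a := a) (uc_par hb hq b c) (-1 + 1 + 1)
    have oπ := fun b c => of_cos (lam := lam) (a := a) (hπ b c) (-1 + 1)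
    have ad := fun r => adm_jet (fun b c => sm (oH b c) r) (fun b c => sm (oπ b c) r)
      (fun b c => funext fun z => by rw [par_symm (Gm_symm hb r z) (sq r z)])
      fun b c => funext fun z => by rw [sπ r z]
    refine ⟨_, ad, fun b c => congr zero fun r z => ?_, fun b c => congr zero fun r z => ?_,
      fun k => ?_⟩
    · simp [jet, mul_assoc]
    · simp [jet]
    cases k with
    | none =>
      refine congr (symb_H hb hs hl hK ad oH oπ) fun r z => ?_
      have e : ∀ (y : X3) (s t : ℝ), ∑ b, ∑ c, SS (Gm jb r y) b c a a *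
          (s * (par (Gm jb r y) (q r y) b c * t)) = 0 := fun y s t => by
        have := SS_par (Gm_symm hb r y) (q r y) a a
        rw [q0, mul_zero] at this
        simp only [Fin.sum_univ_three] at this ⊢
        linear_combination s * t * this
      simp only [jet, e, D_const, sub_zero]
    | some e =>
      refine congr (symb_M hb hs hl hK ad oH oπ e) fun r z => ?_
      simp only [jet, π0, zero_mul, mul_zero, Finset.sum_const_zero, D_const, sub_zero]
  | succ J ih =>
    obtain ⟨j, ad, o1, o2, o3⟩ := ih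
    obtain ⟨j', ad', p1, p2, p3⟩ := step hb hs hl hK o3
    refine ⟨fun r x z => j r x z + j' r x z, fun r => adm_add (ad r) (ad' r),
      fun b c => congr (add (o1 b c) (mono hl (p1 b c) (by omega))) fun r z => by ring,
      fun b c => congr (add (o2 b c) (mono hl (p2 b c) (by omega))) fun r z => by ring,
      fun k => congr (cast (p3 k) (by push_cast; rfl)) fun r z => lin_add r _ _ k z⟩

end Vale.Agent.P354KW
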