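import Vale.Agent.P354K.Unif

open scoped ContDiff
open Set

namespace Vale.Agent.P354KW

open Vale.Agent.P354H (X3)
open Vale.Agent.P354K

theorem cos_sm (l : ℝ) (a : Fin 3) : Sm fun z => Real.cos (l * yc a z) :=
  Real.contDiff_cos.comp (contDiff_const.mul (yc_sm a))

theorem sin_sm (l : ℝ) (a : Fin 3) : Sm fun z => Real.sin (l * yc a z) :=
  Real.contDiff_sin.comp (contDiff_const.mul (yc_sm a))

theorem D_cos (i a : Fin 3) (l : ℝ) : D i (fun z => Real.cos (l * yc a z)) =
    fun z => -Real.sin (l * yc a z) * (l * if a = i then 1 else 0) := by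
  rw [D_comp i Real.hasDerivAt_cos (contDiff_const.mul (yc_sm a)), D_cmul i l (yc_sm a), D_yc]

theorem D_sin (i a : Fin 3) (l : ℝ) : D i (fun z => Real.sin (l * yc a z)) =
    fun z => Real.cos (l * yc a z) * (l * if a = i then 1 else 0) := by
  rw [D_comp i Real.hasDerivAt_sin (contDiff_const.mul (yc_sm a)), D_cmul i l (yc_sm a), D_yc]

theorem D_wave (i a : Fin 3) (c l : ℝ) {A B : X3 → ℝ} (hA : Sm A) (hB : Sm B) :
    D i (fun z => c * (A z * Real.cos (l * yc a z) + B z * Real.sin (l * yc a z))) =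
      fun z => c * ((D i A z + (if a = i then 1 else 0) * l * B z) * Real.cos (l * yc a z) +
        (D i B z - (if a = i then 1 else 0) * l * A z) * Real.sin (l * yc a z)) := by
  have h1 := hA.mul (cos_sm l a)
  have h2 := hB.mul (sin_sm l a)
  rw [D_cmul i c (h1.add h2), D_add i h1 h2, D_mul i hA (cos_sm l a), D_mul i hB (sin_sm l a),
    D_cos, D_sin]
  funext z
  ring

variable {P : Type} {K : Set X3} {lam : P → ℝ} {a : Fin 3} {n m : ℤ} {F G c : P → X3 → ℝ}

theorem congr (h : Osc K lam a n F) (e : ∀ r z, G r z = F r z) : Osc K lam a n G :=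
  let ⟨A, B, hA, hB, h⟩ := h
  ⟨A, B, hA, hB, fun r z => (e r z).trans (h r z)⟩

theorem cast (h : Osc K lam a n F) (e : n = m) : Osc K lam a m F := e ▸ h

theorem sm (h : Osc K lam a n F) (r : P) : Sm (F r) := by
  obtain ⟨A, B, hA, hB, h⟩ := h
  rw [show F r = _ from funext (h r)]
  exact contDiff_const.mul (((hA.1.1 r).mul (cos_sm _ a)).add ((hB.1.1 r).mul (sin_sm _ a)))

theorem supp (h : Osc K lam a n F) (r : P) (z : X3) (hz : z ∉ K) : F r z = 0 := by
  obtain ⟨A, B, hA, hB, h⟩ := h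
  simp [h, hA.2 r z hz, hB.2 r z hz]

theorem zero : Osc K lam a n fun _ _ => 0 := ⟨_, _, uc_zero, uc_zero, fun _ _ => by simp⟩

theorem add (h : Osc K lam a n F) (h' : Osc K lam a n G) :
    Osc K lam a n fun r z => F r z + G r z := by
  obtain ⟨A, B, hA, hB, h⟩ := h
  obtain ⟨A', B', hA', hB', h'⟩ := h'
  refine ⟨_, _, hA.add hA', hB.add hB', fun r z => ?_⟩
  simp only [h, h']
  ring

theorem mul (h : Osc K lam a n F) (hc : UB c) : Osc K lam a n fun r z => c r z * F r z := by
  obtain ⟨A, B, hA, hB, h⟩ := h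
  refine ⟨_, _, hA.mul hc, hB.mul hc, fun r z => ?_⟩
  simp only [h]
  ring

theorem neg (h : Osc K lam a n F) : Osc K lam a n fun r z => -F r z :=
  congr (mul h (ub_c (-1))) fun _ _ => by simp

theorem sub (h : Osc K lam a n F) (h' : Osc K lam a n G) :
    Osc K lam a n fun r z => F r z - G r z := congr (add h (neg h')) fun _ _ => sub_eq_add_neg _ _

theorem fsum {ι : Type} (s : Finset ι) {f : ι → P → X3 → ℝ} (h : ∀ i ∈ s, Osc K lam a n (f i)) :
    Osc K lam a n fun r z => ∑ i ∈ s, f i r z := by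
  classical
  induction s using Finset.induction_on with
  | empty => exact congr zero fun _ _ => Finset.sum_empty
  | insert x s hx ih =>
    exact congr (add (h x (Finset.mem_insert_self _ _))
      (ih fun i hi => h i (Finset.mem_insert_of_mem hi))) fun _ _ => Finset.sum_insert hx

theorem sum {ι : Type} [Fintype ι] {f : ι → P → X3 → ℝ} (h : ∀ i, Osc K lam a n (f i)) :
    Osc K lam a n fun r z => ∑ i, f i r z := fsum _ fun i _ => h i

theorem sum_sub {ι : Type} [Fintype ι] {f : ι → P → X3 → ℝ} (i0 : ι)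
    (h : ∀ i ≠ i0, Osc K lam a n (f i)) : Osc K lam a n fun r z => ∑ i, f i r z - f i0 r z := by
  classical
  exact congr (fsum (Finset.univ.erase i0) fun i hi => h i (Finset.ne_of_mem_erase hi))
    fun r z => (Finset.sum_erase_eq_sub (f := fun i => f i r z) (Finset.mem_univ i0)).symm

theorem of_cos {A : P → X3 → ℝ} (hA : UC K A) (n : ℤ) :
    Osc K lam a n fun r z => lam r ^ (-n) * (A r z * Real.cos (lam r * yc a z)) :=
  ⟨_, _, hA, uc_zero, fun _ _ => by simp⟩

theorem of_sin {A : P → X3 → ℝ} (hA : UC K A) (n : ℤ) :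
    Osc K lam a n fun r z => lam r ^ (-n) * (A r z * Real.sin (lam r * yc a z)) :=
  ⟨_, _, uc_zero, hA, fun _ _ => by simp⟩

section
variable (hl : ∀ r, 1 ≤ lam r)
include hl

theorem ub_zpow (k : ℤ) (hk : k ≤ 0) : UB fun r (_ : X3) => lam r ^ k :=
  ub_const ⟨1, fun r => by
    rw [abs_of_pos (zpow_pos (one_pos.trans_le (hl r)) k)]
    exact zpow_le_one_of_nonpos₀ (hl r) hk⟩

theorem mono (h : Osc K lam a n F) (hm : m ≤ n) : Osc K lam a m F := by
  obtain ⟨A, B, hA, hB, h⟩ := h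
  have u := ub_zpow hl (m - n) (by omega)
  refine ⟨_, _, hA.mul u, hB.mul u, fun r z => ?_⟩
  have e : lam r ^ (-n) = lam r ^ (-m) * lam r ^ (m - n) := by
    rw [← zpow_add₀ (one_pos.trans_le (hl r)).ne']
    congr 1
    ring
  rw [h, e]
  ring

/-- A primitive at leading order. -/
theorem prim (hK : IsCompact K) (h : Osc K lam a n F) : ∃ G, Osc K lam a (n + 1) G ∧
    Osc K lam a (n + 1) fun r z => D a (G r) z - F r z := by
  obtain ⟨A, B, hA, hB, h⟩ := h
  refine ⟨fun r z => lam r ^ (-(n + 1)) * (-B r z * Real.cos (lam r * yc a z) +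
    A r z * Real.sin (lam r * yc a z)), ⟨_, _, hB.neg, hA, fun _ _ => rfl⟩,
    _, _, hB.neg.D hK a, hA.D hK a, fun r z => ?_⟩
  have e : lam r ^ (-n) = lam r ^ (-(n + 1)) * lam r := by
    rw [← zpow_add_one₀ (one_pos.trans_le (hl r)).ne']
    congr 1
    ring
  have w := congrFun (D_wave a a (lam r ^ (-(n + 1))) (lam r) (hB.neg.1.1 r) (hA.1.1 r)) z
  beta_reduce at w ⊢
  rw [w, h, e, if_pos rfl]
  ring

theorem der (hK : IsCompact K) (h : Osc K lam a (n + 1) F) (i : Fin 3) :
    Osc K lam a n fun r => D i (F r) := by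
  obtain ⟨A, B, hA, hB, h⟩ := h
  have u := ub_zpow hl (-1) (by omega)
  have v : UB fun (_ : P) (_ : X3) => if a = i then (1 : ℝ) else 0 := ub_c _
  refine ⟨_, _, ((hA.D hK i).mul u).add (hB.mul v), ((hB.D hK i).mul u).sub (hA.mul v),
    fun r z => ?_⟩
  have h0 := (one_pos.trans_le (hl r)).ne'
  have e : lam r ^ (-(n + 1)) = lam r ^ (-n) * lam r ^ (-1 : ℤ) := by
    rw [← zpow_add₀ h0]
    congr 1
    ring
  beta_reduce
  rw [show F r = _ from funext (h r), D_wave i a _ _ (hA.1.1 r) (hB.1.1 r), e, zpow_neg_one]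
  field_simp

end

theorem der_ne (hK : IsCompact K) (h : Osc K lam a n F) {i : Fin 3} (hi : i ≠ a) :
    Osc K lam a n fun r => D i (F r) := by
  obtain ⟨A, B, hA, hB, h⟩ := h
  refine ⟨_, _, hA.D hK i, hB.D hK i, fun r z => ?_⟩
  beta_reduce
  rw [show F r = _ from funext (h r), D_wave i a _ _ (hA.1.1 r) (hB.1.1 r), if_neg hi.symm]
  simp

theorem comm1 (h : Osc K lam a n F) (hc : UD c) (i : Fin 3) :
    Osc K lam a n fun r z => c r z * D i (F r) z - D i (fun y => c r y * F r y) z := by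
  refine congr (neg (mul h (hc.D i).ub)) fun r z => ?_
  rw [D_mul i (hc.1 r) (sm h r)]
  ring

theorem comm2 (hl : ∀ r, 1 ≤ lam r) (hK : IsCompact K) (h : Osc K lam a (n + 1) F) (hc : UD c)
    (i k : Fin 3) : Osc K lam a n fun r z =>
      c r z * D i (D k (F r)) z - D i (D k fun y => c r y * F r y) z := by
  refine congr (add (comm1 (der hl hK h k) hc i) (der hl hK (comm1 h hc k) i)) fun r z => ?_
  rw [D_sub i ((hc.1 r).mul (D_sm k (sm h r))) (D_sm k ((hc.1 r).mul (sm h r)))]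
  ring

end Vale.Agent.P354KW
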